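import Mathlib

/-!
# P032: five consecutive intervals of the unit circle

`nv q0 q1 q2 q3` : squared length of `u q1 - u q0 + u q3 - u q2` (sum of two chords), `u q = (cos q, sin q)`.

* `five` : angles `p0 < p1 < ... < p5` with steps at most `π / 3`; if the three sums of chords of the windows
  `p0 p1 p2 p3`, `p1 p2 p3 p4`, `p2 p3 p4 p5` have length at most one, then `p5 - p0 ≤ π` or the three inner steps are
  exactly `π / 3`.
* `five_eight`, `five_seven` : the same for a closed chain of eight (seven) steps of total length `2 π`.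
-/

open Real

namespace Vale.Agent.P032.H433

/-- squared length of the sum of the chords `q0 q1` and `q2 q3` -/
noncomputable def nv (q0 q1 q2 q3 : ℝ) : ℝ :=
  (cos q1 - cos q0 + cos q3 - cos q2) ^ 2 + (sin q1 - sin q0 + sin q3 - sin q2) ^ 2

theorem nv_eq (q0 q1 q2 q3 : ℝ) : nv q0 q1 q2 q3 = 4 - 2 * cos (q1 - q0) + 2 * cos (q3 - q1) - 2 * cos (q2 - q1)
    - 2 * cos (q3 - q0) + 2 * cos (q2 - q0) - 2 * cos (q3 - q2) := by
  unfold nv
  simp only [cos_sub]
  have h0 := sin_sq_add_cos_sq q0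
  have h1 := sin_sq_add_cos_sq q1
  have h2 := sin_sq_add_cos_sq q2
  have h3 := sin_sq_add_cos_sq q3
  linear_combination h0 + h1 + h2 + h3

/-- dot products of a vector in the unit disc -/
theorem dot_le {X Y a b : ℝ} (h : X ^ 2 + Y ^ 2 ≤ 1) (hab : a ^ 2 + b ^ 2 = 1) : X * a + Y * b ≤ 1 := by
  nlinarith [sq_nonneg (X - a), sq_nonneg (Y - b)]

/-- first lens: `V` and `u4 - u0 - V` in the unit disc, `p4 - p0 < π`, `V` is on one side of `u (p0 + π)` -/
theorem lens1 {p0 p4 X Y : ℝ} (h04 : 2 * (π / 3) ≤ p4 - p0) (h4 : p4 - p0 < π) (hV : X ^ 2 + Y ^ 2 ≤ 1)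
    (hW : (cos p4 - cos p0 - X) ^ 2 + (sin p4 - sin p0 - Y) ^ 2 ≤ 1) :
    X * sin p0 - Y * cos p0 ≤ 0 ∧ -cos (p4 - p0) ≤ X * cos p4 + Y * sin p4 := by
  have c0 := sin_sq_add_cos_sq p0
  have c4 := sin_sq_add_cos_sq p4
  have pi := pi_pos
  have hs : 0 < sin (p4 - p0) := sin_pos_of_pos_of_lt_pi (by linarith) h4
  have hc : cos (p4 - p0) ≤ 0 := cos_nonpos_of_pi_div_two_le_of_le (by linarith) (by linarith)
  have e1 : X * (-cos p0) + Y * (-sin p0) ≤ 1 := dot_le hV (by linarith)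
  have e2 : (cos p4 - cos p0 - X) * cos p4 + (sin p4 - sin p0 - Y) * sin p4 ≤ 1 := dot_le hW (by linarith)
  have e3 : -cos (p4 - p0) ≤ X * cos p4 + Y * sin p4 := by
    rw [cos_sub]; linarith
  refine ⟨?_, e3⟩
  have key : sin (p4 - p0) * (X * sin p0 - Y * cos p0)
      = -cos (p4 - p0) * (X * (-cos p0) + Y * (-sin p0)) - (X * cos p4 + Y * sin p4) := by
    rw [sin_sub, cos_sub]
    linear_combination (-(X * cos p4) - Y * sin p4) * c0
  have : sin (p4 - p0) * (X * sin p0 - Y * cos p0) ≤ 0 := by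
    rw [key]
    nlinarith
  by_contra hcon
  push Not at hcon
  nlinarith

/-- second lens: `V` and `u5 - u1 - V` in the unit disc, `p5 - p1 < π` -/
theorem lens2 {p1 p5 X Y : ℝ} (h15 : 2 * (π / 3) ≤ p5 - p1) (h5 : p5 - p1 < π) (hV : X ^ 2 + Y ^ 2 ≤ 1)
    (hW : (cos p5 - cos p1 - X) ^ 2 + (sin p5 - sin p1 - Y) ^ 2 ≤ 1) :
    X * sin p5 - Y * cos p5 ≤ 0 := by
  have c1 := sin_sq_add_cos_sq p1
  have c5 := sin_sq_add_cos_sq p5
  have pi := pi_pos
  have hs : 0 < sin (p5 - p1) := sin_pos_of_pos_of_lt_pi (by linarith) h5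
  have hc : cos (p5 - p1) ≤ 0 := cos_nonpos_of_pi_div_two_le_of_le (by linarith) (by linarith)
  have e1 : X * cos p5 + Y * sin p5 ≤ 1 := dot_le hV (by linarith)
  have e2 : (cos p5 - cos p1 - X) * (-cos p1) + (sin p5 - sin p1 - Y) * (-sin p1) ≤ 1 := dot_le hW (by linarith)
  have e3 : X * cos p1 + Y * sin p1 ≤ cos (p5 - p1) := by
    rw [cos_sub]; linarith
  have key : sin (p5 - p1) * (X * sin p5 - Y * cos p5)
      = (X * cos p1 + Y * sin p1) - cos (p5 - p1) * (X * cos p5 + Y * sin p5) := by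
    rw [sin_sub, cos_sub]
    linear_combination (X * cos p1 + Y * sin p1) * c5
  have : sin (p5 - p1) * (X * sin p5 - Y * cos p5) ≤ 0 := by
    rw [key]
    nlinarith
  by_contra hcon
  push Not at hcon
  nlinarith

/-- `sin t1 + sin t3 ≤ sin t2` forces two steps of `π / 3` -/
theorem sin_three {t1 t2 t3 : ℝ} (h1 : 0 < t1) (h1' : t1 ≤ π / 3) (h2 : t1 ≤ t2) (h2' : t2 ≤ t1 + π / 3)
    (h3 : t2 ≤ t3) (h3' : t3 ≤ t2 + π / 3) (hs : sin t1 + sin t3 ≤ sin t2) :
    t2 = t1 + π / 3 ∧ t3 = t2 + π / 3 := by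
  have pi := pi_pos
  have s1 : 0 < sin t1 := sin_pos_of_pos_of_lt_pi h1 (by linarith)
  have e := sin_sub_sin t3 t2
  have hh0 : 0 ≤ sin ((t3 - t2) / 2) := sin_nonneg_of_nonneg_of_le_pi (by linarith) (by linarith)
  have hh1 : sin ((t3 - t2) / 2) ≤ 1 / 2 := by
    rw [← sin_pi_div_six]
    exact sin_le_sin_of_le_of_le_pi_div_two (by linarith) (by linarith) (by linarith)
  by_contra hcon
  have hm : (t3 + t2) / 2 < t1 + π / 2 := by
    by_contra hh
    push Not at hh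
    exact hcon ⟨by linarith, by linarith⟩
  have hc : cos (t1 + π / 2) < cos ((t3 + t2) / 2) :=
    cos_lt_cos_of_nonneg_of_le_pi (by linarith) (by linarith) hm
  rw [cos_add_pi_div_two] at hc
  rcases le_or_gt 0 (cos ((t3 + t2) / 2)) with hM | hM
  · have := mul_nonneg hh0 hM
    linarith
  · have : sin ((t3 - t2) / 2) * -cos ((t3 + t2) / 2) ≤ 1 / 2 * -cos ((t3 + t2) / 2) :=
      mul_le_mul_of_nonneg_right hh1 (by linarith)
    linarith

/-- third lens: `V` and `u4 - u0 - V` in the unit disc, `p4 - p0 ≥ π` -/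
theorem lens3a {p0 p4 X Y : ℝ} (h : π ≤ p4 - p0) (h4 : p4 - p0 ≤ 4 * (π / 3)) (hV : X ^ 2 + Y ^ 2 ≤ 1)
    (hW : (cos p4 - cos p0 - X) ^ 2 + (sin p4 - sin p0 - Y) ^ 2 ≤ 1) : 0 ≤ X * sin p0 - Y * cos p0 := by
  have pi := pi_pos
  have c0 := sin_sq_add_cos_sq p0
  have c4 := sin_sq_add_cos_sq p4
  have hs : sin (p4 - p0) ≤ 0 := by
    have : 0 ≤ sin (p4 - p0 - π) := sin_nonneg_of_nonneg_of_le_pi (by linarith) (by linarith)
    rw [sin_sub_pi] at this; linarith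
  have hc : cos (p4 - p0) ≤ 0 := cos_nonpos_of_pi_div_two_le_of_le (by linarith) (by linarith)
  have e1 : X * (-cos p0) + Y * (-sin p0) ≤ 1 := dot_le hV (by linarith)
  have e2 : (cos p4 - cos p0 - X) * cos p4 + (sin p4 - sin p0 - Y) * sin p4 ≤ 1 := dot_le hW (by linarith)
  have e3 : -cos (p4 - p0) ≤ X * cos p4 + Y * sin p4 := by
    rw [cos_sub]; linarith
  have key : sin (p4 - p0) * (X * sin p0 - Y * cos p0)
      = -cos (p4 - p0) * (X * (-cos p0) + Y * (-sin p0)) - (X * cos p4 + Y * sin p4) := by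
    rw [sin_sub, cos_sub]
    linear_combination (-(X * cos p4) - Y * sin p4) * c0
  have k3 : (X * sin p0 - Y * cos p0) ^ 2 + (X * (-cos p0) + Y * (-sin p0)) ^ 2 = X ^ 2 + Y ^ 2 := by
    linear_combination (X ^ 2 + Y ^ 2) * c0
  have hle : sin (p4 - p0) * (X * sin p0 - Y * cos p0) ≤ 0 := by
    rw [key]
    have : -cos (p4 - p0) * (X * (-cos p0) + Y * (-sin p0)) ≤ -cos (p4 - p0) * 1 :=
      mul_le_mul_of_nonneg_left e1 (by linarith)
    linarith
  rcases hs.lt_or_eq with hs | hs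
  · by_contra hcon
    push Not at hcon
    have := mul_pos_of_neg_of_neg hs hcon
    linarith
  · have hc1 : cos (p4 - p0) = -1 := by
      have h1 := sin_sq_add_cos_sq (p4 - p0)
      rw [hs] at h1
      have h2 : (cos (p4 - p0) - 1) * (cos (p4 - p0) + 1) = 0 := by linear_combination h1
      rcases mul_eq_zero.1 h2 with h2 | h2
      · linarith
      · linarith
    rw [hs, hc1] at key
    rw [hc1] at e3
    have k1 : X * (-cos p0) + Y * (-sin p0) = X * cos p4 + Y * sin p4 := by linarith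
    have k2 : 1 ≤ X * (-cos p0) + Y * (-sin p0) := by linarith
    have k4 : 1 ≤ (X * (-cos p0) + Y * (-sin p0)) ^ 2 := by nlinarith
    have k5 : (X * sin p0 - Y * cos p0) ^ 2 ≤ 0 := by linarith
    have k6 : X * sin p0 - Y * cos p0 = 0 := by
      have := le_antisymm k5 (sq_nonneg _)
      exact pow_eq_zero_iff (two_ne_zero) |>.1 this
    rw [k6]

theorem lens3 {p0 p1 p2 p3 p4 : ℝ} (h1 : p0 < p1) (h1' : p1 - p0 ≤ π / 3) (h2 : p1 < p2) (h2' : p2 - p1 ≤ π / 3)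
    (h3 : p2 < p3) (h3' : p3 - p2 ≤ π / 3) (h4' : p4 - p3 ≤ π / 3) (h : π ≤ p4 - p0)
    (n1 : nv p0 p1 p2 p3 ≤ 1) (n2 : nv p1 p2 p3 p4 ≤ 1) : p2 - p1 = π / 3 ∧ p3 - p2 = π / 3 := by
  have hW : (cos p4 - cos p0 - (cos p1 - cos p0 + cos p3 - cos p2)) ^ 2
      + (sin p4 - sin p0 - (sin p1 - sin p0 + sin p3 - sin p2)) ^ 2 ≤ 1 := by
    have : (cos p4 - cos p0 - (cos p1 - cos p0 + cos p3 - cos p2)) ^ 2
      + (sin p4 - sin p0 - (sin p1 - sin p0 + sin p3 - sin p2)) ^ 2 = nv p1 p2 p3 p4 := by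
      unfold nv; ring
    rw [this]; exact n2
  have hn := lens3a h (by linarith) n1 hW
  have hsum : sin (p1 - p0) + sin (p3 - p0) ≤ sin (p2 - p0) := by
    have : (cos p1 - cos p0 + cos p3 - cos p2) * sin p0 - (sin p1 - sin p0 + sin p3 - sin p2) * cos p0
        = -(sin (p1 - p0) + sin (p3 - p0) - sin (p2 - p0)) := by
      rw [sin_sub, sin_sub, sin_sub]; ring
    linarith
  obtain ⟨a, b⟩ := sin_three (t1 := p1 - p0) (t2 := p2 - p0) (t3 := p3 - p0) (by linarith) h1' (by linarith)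
    (by linarith) (by linarith) (by linarith) hsum
  exact ⟨by linarith, by linarith⟩

/-- a step of `π / 3`, a gap shorter than `π / 3` and any step: the sum of the chords is longer than one -/
theorem short_gap {g y : ℝ} (hg0 : 0 < g) (hg : g < π / 3) (hy0 : 0 < y) (hy : y ≤ π / 3) :
    1 < 4 - 2 * cos (π / 3) + 2 * cos (g + y) - 2 * cos g - 2 * cos (π / 3 + g + y) + 2 * cos (π / 3 + g)
      - 2 * cos y := by
  have pi := pi_pos
  have s : 0 < sin (y / 2) := sin_pos_of_pos_of_lt_pi (by linarith) (by linarith)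
  have e1 : cos (g + y) - cos (π / 3 + g + y) = sin (g + y + π / 6) := by
    have : cos (g + y) - cos (π / 3 + g + y) = -2 * sin ((g + y + (π / 3 + g + y)) / 2) *
        sin ((g + y - (π / 3 + g + y)) / 2) := cos_sub_cos _ _
    rw [this, show (g + y + (π / 3 + g + y)) / 2 = g + y + π / 6 by ring,
      show (g + y - (π / 3 + g + y)) / 2 = -(π / 6) by ring, sin_neg, sin_pi_div_six]
    ring
  have e2 : cos (π / 3 + g) - cos g = -sin (g + π / 6) := by
    have : cos (π / 3 + g) - cos g = -2 * sin ((π / 3 + g + g) / 2) * sin ((π / 3 + g - g) / 2) := cos_sub_cos _ _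
    rw [this, show (π / 3 + g + g) / 2 = g + π / 6 by ring, show (π / 3 + g - g) / 2 = π / 6 by ring,
      sin_pi_div_six]
    ring
  have e3 : sin (g + y + π / 6) - sin (g + π / 6) = 2 * sin (y / 2) * cos (g + π / 6 + y / 2) := by
    have : sin (g + y + π / 6) - sin (g + π / 6) = 2 * sin ((g + y + π / 6 - (g + π / 6)) / 2) *
        cos ((g + y + π / 6 + (g + π / 6)) / 2) := sin_sub_sin _ _
    rw [this, show (g + y + π / 6 - (g + π / 6)) / 2 = y / 2 by ring,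
      show (g + y + π / 6 + (g + π / 6)) / 2 = g + π / 6 + y / 2 by ring]
  have e4 : cos y = 1 - 2 * sin (y / 2) ^ 2 := by
    have := cos_two_mul (y / 2)
    rw [show 2 * (y / 2) = y by ring] at this
    have h2 := sin_sq_add_cos_sq (y / 2)
    linarith
  have e5 : -sin (y / 2) < cos (g + π / 6 + y / 2) := by
    have : cos (y / 2 + π / 2) < cos (g + π / 6 + y / 2) :=
      cos_lt_cos_of_nonneg_of_le_pi (by linarith) (by linarith) (by linarith)
    rwa [cos_add_pi_div_two] at this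
  have e6 : cos (π / 3) = 1 / 2 := cos_pi_div_three
  nlinarith

theorem step_right {q0 q1 q2 q3 : ℝ} (h1 : q1 - q0 = π / 3) (h2 : q1 < q2) (h2' : q2 - q1 ≤ π / 3) (h3 : q2 < q3)
    (h3' : q3 - q2 ≤ π / 3) (n : nv q0 q1 q2 q3 ≤ 1) : q2 - q1 = π / 3 := by
  by_contra hcon
  have hlt := lt_of_le_of_ne h2' hcon
  have := short_gap (g := q2 - q1) (y := q3 - q2) (by linarith) hlt (by linarith) h3'
  rw [nv_eq, h1, show q3 - q1 = q2 - q1 + (q3 - q2) by ring, show q3 - q0 = π / 3 + (q2 - q1) + (q3 - q2) by linarith,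
    show q2 - q0 = π / 3 + (q2 - q1) by linarith] at n
  linarith

theorem step_left {q0 q1 q2 q3 : ℝ} (h1 : q3 - q2 = π / 3) (h2 : q1 < q2) (h2' : q2 - q1 ≤ π / 3) (h3 : q0 < q1)
    (h3' : q1 - q0 ≤ π / 3) (n : nv q0 q1 q2 q3 ≤ 1) : q2 - q1 = π / 3 := by
  by_contra hcon
  have hlt := lt_of_le_of_ne h2' hcon
  have := short_gap (g := q2 - q1) (y := q1 - q0) (by linarith) hlt (by linarith) h3'
  rw [nv_eq, h1, show q3 - q1 = π / 3 + (q2 - q1) by linarith,
    show q3 - q0 = π / 3 + (q2 - q1) + (q1 - q0) by linarith, show q2 - q0 = q2 - q1 + (q1 - q0) by ring] at n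
  linarith

/-- **five consecutive intervals**. -/
theorem five {p0 p1 p2 p3 p4 p5 : ℝ} (h1 : p0 < p1) (h1' : p1 - p0 ≤ π / 3) (h2 : p1 < p2) (h2' : p2 - p1 ≤ π / 3)
    (h3 : p2 < p3) (h3' : p3 - p2 ≤ π / 3) (h4 : p3 < p4) (h4' : p4 - p3 ≤ π / 3) (h5 : p4 < p5)
    (h5' : p5 - p4 ≤ π / 3) (n1 : nv p0 p1 p2 p3 ≤ 1) (n2 : nv p1 p2 p3 p4 ≤ 1) (n3 : nv p2 p3 p4 p5 ≤ 1) :
    p5 - p0 ≤ π ∨ p2 - p1 = π / 3 ∧ p3 - p2 = π / 3 ∧ p4 - p3 = π / 3 := by
  have pi := pi_pos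
  by_contra hcon
  push Not at hcon
  obtain ⟨hbig, hno⟩ := hcon
  rcases le_or_gt π (p4 - p0) with ha | ha
  · obtain ⟨b, c⟩ := lens3 h1 h1' h2 h2' h3 h3' h4' ha n1 n2
    exact hno b c (step_right c h4 h4' h5 h5' n3)
  rcases le_or_gt π (p5 - p1) with hb | hb
  · obtain ⟨b, c⟩ := lens3 h2 h2' h3 h3' h4 h4' h5' hb n2 n3
    exact hno (step_left b h2 h2' h1 h1' n1) b c
  · have w1 : (cos p4 - cos p0 - (cos p2 - cos p1 + cos p4 - cos p3)) ^ 2
        + (sin p4 - sin p0 - (sin p2 - sin p1 + sin p4 - sin p3)) ^ 2 ≤ 1 := by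
      have : (cos p4 - cos p0 - (cos p2 - cos p1 + cos p4 - cos p3)) ^ 2
        + (sin p4 - sin p0 - (sin p2 - sin p1 + sin p4 - sin p3)) ^ 2 = nv p0 p1 p2 p3 := by
        unfold nv; ring
      rw [this]; exact n1
    have w2 : (cos p5 - cos p1 - (cos p2 - cos p1 + cos p4 - cos p3)) ^ 2
        + (sin p5 - sin p1 - (sin p2 - sin p1 + sin p4 - sin p3)) ^ 2 ≤ 1 := by
      have : (cos p5 - cos p1 - (cos p2 - cos p1 + cos p4 - cos p3)) ^ 2
        + (sin p5 - sin p1 - (sin p2 - sin p1 + sin p4 - sin p3)) ^ 2 = nv p2 p3 p4 p5 := by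
        unfold nv; ring
      rw [this]; exact n3
    have n2' : (cos p2 - cos p1 + cos p4 - cos p3) ^ 2 + (sin p2 - sin p1 + sin p4 - sin p3) ^ 2 ≤ 1 := n2
    generalize cos p2 - cos p1 + cos p4 - cos p3 = X at w1 w2 n2'
    generalize sin p2 - sin p1 + sin p4 - sin p3 = Y at w1 w2 n2'
    obtain ⟨a1, a2⟩ := lens1 (by linarith) ha n2' w1
    have a3 := lens2 (by linarith) hb n2' w2
    have hs : sin (p5 - p0) < 0 := by
      have : 0 < sin (p5 - p0 - π) := sin_pos_of_pos_of_lt_pi (by linarith) (by linarith)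
      rw [sin_sub_pi] at this; linarith
    have hc4 : cos (p4 - p0) < 0 := cos_neg_of_pi_div_two_lt_of_lt (by linarith) (by linarith)
    have hc5 : 0 ≤ cos (p5 - p4) := cos_nonneg_of_neg_pi_div_two_le_of_le (by linarith) (by linarith)
    have key : -sin (p5 - p0) * (X * cos p4 + Y * sin p4)
        = cos (p5 - p4) * (X * sin p0 - Y * cos p0) + -cos (p4 - p0) * (X * sin p5 - Y * cos p5) := by
      rw [sin_sub, cos_sub, cos_sub]; ring
    have k1 : cos (p5 - p4) * (X * sin p0 - Y * cos p0) ≤ 0 := mul_nonpos_of_nonneg_of_nonpos hc5 a1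
    have k2 : -cos (p4 - p0) * (X * sin p5 - Y * cos p5) ≤ 0 :=
      mul_nonpos_of_nonneg_of_nonpos (by linarith) a3
    have k3 : 0 < -sin (p5 - p0) * (X * cos p4 + Y * sin p4) := mul_pos (by linarith) (by linarith)
    linarith

/-- eight steps of total length `2 π`: three consecutive steps are exactly `π / 3` -/
theorem five_eight {p : ℕ → ℝ} (h : ∀ i < 8, p i < p (i + 1) ∧ p (i + 1) - p i ≤ π / 3) (hp : p 8 = p 0 + 2 * π)
    (n1 : nv (p 0) (p 1) (p 2) (p 3) ≤ 1) (n2 : nv (p 1) (p 2) (p 3) (p 4) ≤ 1)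
    (n3 : nv (p 2) (p 3) (p 4) (p 5) ≤ 1) :
    (p 2 - p 1 = π / 3 ∧ p 3 - p 2 = π / 3 ∧ p 4 - p 3 = π / 3) ∨
      (p 6 - p 5 = π / 3 ∧ p 7 - p 6 = π / 3 ∧ p 8 - p 7 = π / 3) := by
  have h0 := h 0 (by norm_num); have h1 := h 1 (by norm_num); have h2 := h 2 (by norm_num)
  have h3 := h 3 (by norm_num); have h4 := h 4 (by norm_num); have h5 := h 5 (by norm_num)
  have h6 := h 6 (by norm_num); have h7 := h 7 (by norm_num)
  simp only [Nat.reduceAdd, zero_add] at h0 h1 h2 h3 h4 h5 h6 h7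
  rcases five h0.1 h0.2 h1.1 h1.2 h2.1 h2.2 h3.1 h3.2 h4.1 h4.2 n1 n2 n3 with e | e
  · right
    refine ⟨?_, ?_, ?_⟩ <;> linarith [h5.2, h6.2, h7.2]
  · exact Or.inl e

/-- seven steps of total length `2 π`: the middle three steps are exactly `π / 3` -/
theorem five_seven {p : ℕ → ℝ} (h : ∀ i < 7, p i < p (i + 1) ∧ p (i + 1) - p i ≤ π / 3) (hp : p 7 = p 0 + 2 * π)
    (n1 : nv (p 0) (p 1) (p 2) (p 3) ≤ 1) (n2 : nv (p 1) (p 2) (p 3) (p 4) ≤ 1)
    (n3 : nv (p 2) (p 3) (p 4) (p 5) ≤ 1) :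
    p 2 - p 1 = π / 3 ∧ p 3 - p 2 = π / 3 ∧ p 4 - p 3 = π / 3 := by
  have pi := pi_pos
  have h0 := h 0 (by norm_num); have h1 := h 1 (by norm_num); have h2 := h 2 (by norm_num)
  have h3 := h 3 (by norm_num); have h4 := h 4 (by norm_num); have h5 := h 5 (by norm_num)
  have h6 := h 6 (by norm_num)
  simp only [Nat.reduceAdd, zero_add] at h0 h1 h2 h3 h4 h5 h6
  rcases five h0.1 h0.2 h1.1 h1.2 h2.1 h2.2 h3.1 h3.2 h4.1 h4.2 n1 n2 n3 with e | e
  · exfalso; linarith [h5.2, h6.2]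
  · exact e

end Vale.Agent.P032.H433
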